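import Vale.Agent.P042.R2.H757.Spec
import Vale.Agent.P042.R2.H463.Base

set_option autoImplicit false

/-! P042.MultiplicativeStatistics, row PAIR: two primes of the same colour whose difference is
`a D m^k` (pigeonhole modulo `a D`). -/

namespace Vale.Agent.P042.H618

open Finset Filter Vale.Agent.P042.H757
open Polynomial (C X)

theorem rpow_le_eps {c c' ε : ℝ} (h : c < c') (hε : 0 < ε) :
    ∀ᶠ l : ℝ in atTop, l ^ c ≤ ε * l ^ c' := by
  filter_upwards [(tendsto_rpow_atTop (sub_pos.2 h)).eventually_ge_atTop (1 / ε),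
    eventually_gt_atTop 0] with l h1 h0
  have e : l ^ c' = l ^ (c' - c) * l ^ c := by
    rw [← Real.rpow_add h0]; congr 1; ring
  have h2 : 0 < l ^ c := Real.rpow_pos_of_pos h0 c
  rw [e]
  calc l ^ c = ε * (1 / ε * l ^ c) := by field_simp
    _ ≤ ε * (l ^ (c' - c) * l ^ c) := by gcongr

theorem card_primeFactors_le {u N : ℕ} (hu : 1 ≤ u) (huN : u ≤ N) :
    (u.primeFactors.card : ℝ) ≤ 2 * Real.log N := by
  have h1 : 2 ^ u.primeFactors.card ≤ N := by
    calc 2 ^ u.primeFactors.card ≤ ∏ p ∈ u.primeFactors, p :=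
          Finset.pow_card_le_prod _ _ _ fun p hp => (Nat.prime_of_mem_primeFactors hp).two_le
      _ ≤ u := Nat.le_of_dvd hu (Nat.prod_primeFactors_dvd u)
      _ ≤ N := huN
  have h2 : ((2 : ℝ) ^ u.primeFactors.card) ≤ N := by exact_mod_cast h1
  have h3 := Real.log_le_log (by positivity) h2
  rw [Real.log_pow] at h3
  have h4 := Real.log_two_gt_d9
  have h5 : (0 : ℝ) ≤ u.primeFactors.card := by positivity
  nlinarith

/-- pigeonhole modulo `M` -/
theorem exists_class (P : Finset ℕ) {M : ℕ} (hM : 1 ≤ M) :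
    ∃ s : ℕ, (P.card : ℝ) ≤ M * ((P.filter (fun p => p % M = s)).card : ℝ) := by
  by_contra hcon
  push Not at hcon
  have h1 : P.card = ∑ s ∈ range M, (P.filter (fun p => p % M = s)).card :=
    Finset.card_eq_sum_card_fiberwise fun p _ => by
      simpa using Nat.mod_lt p (by omega)
  have h2 : (M : ℝ) * (P.card : ℝ) < M * P.card := by
    calc (M : ℝ) * (P.card : ℝ) = ∑ s ∈ range M, (M : ℝ) *
          ((P.filter (fun p => p % M = s)).card : ℝ) := by
          rw [← Finset.mul_sum, h1]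
          push_cast
          rfl
      _ < ∑ s ∈ range M, (P.card : ℝ) :=
          Finset.sum_lt_sum_of_nonempty (by simp; omega) fun s _ => hcon s
      _ = M * P.card := by rw [Finset.sum_const, Finset.card_range, nsmul_eq_mul]
  exact lt_irrefl _ h2

theorem rowPair_of (H : ∀ k : ℕ, 2 ≤ k → ∀ c : ℝ, c < 1 → ∃ K : ℝ, 0 < K ∧ ∀ N : ℕ, 1 ≤ N →
    (rMax (C ((1 : ℕ) : ℤ) * X ^ k) N : ℝ) ≤ K * N * Real.exp (-(Real.log N) ^ c)) : StPair := by
  intro a k ha hk r col v hRich δ hδ hδ1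
  obtain ⟨c₀, hc₀, x0, hrich⟩ := hRich
  obtain ⟨c, hc⟩ : ∃ c : ℝ, c = max c₀ 0 := ⟨_, rfl⟩
  have hc0 : 0 ≤ c := hc ▸ le_max_right _ _
  have hcc : c₀ ≤ c := hc ▸ le_max_left _ _
  have hc1 : c < 1 := by rw [hc]; exact max_lt hc₀ one_pos
  obtain ⟨c', hc'⟩ : ∃ c' : ℝ, c' = (1 + c) / 2 := ⟨_, rfl⟩
  have hcc' : c < c' := by rw [hc']; linarith
  have hc'1 : c' < 1 := by rw [hc']; linarith
  have hc'0 : 0 < c' := by linarith
  obtain ⟨K, hK, hr⟩ := H k hk c' hc'1
  have hlog : Tendsto (fun N : ℕ => Real.log (N : ℝ)) atTop atTop :=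
    Real.tendsto_log_atTop.comp tendsto_natCast_atTop_atTop
  have hδc : 0 < δ ^ c' := Real.rpow_pos_of_pos hδ c'
  have hev : ∀ᶠ N : ℕ in atTop, 1 ≤ N ∧ 2 * ((x0 : ℝ) + 3) ≤ Real.exp (δ * Real.log N) ∧
      8 * Real.log N ≤ Real.exp (δ * Real.log N - (Real.log N) ^ c) ∧
      (Real.log N) ^ c + Real.log (4 * K) < (δ * Real.log N) ^ c' := by
    have e1 : ∀ᶠ l : ℝ in atTop, 2 * ((x0 : ℝ) + 3) ≤ Real.exp (δ * l) :=
      (Real.tendsto_exp_atTop.comp (tendsto_id.const_mul_atTop hδ)).eventually_ge_atTop _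
    have e2 : ∀ᶠ l : ℝ in atTop, l ^ c ≤ δ / 2 * l ^ (1 : ℝ) := rpow_le_eps hc1 (by positivity)
    have e3 : ∀ᶠ l : ℝ in atTop, 8 * l ≤ Real.exp (δ / 2 * l) := by
      have h1 : Tendsto (fun l : ℝ => Real.exp l / l ^ 1) atTop atTop :=
        Real.tendsto_exp_div_pow_atTop 1
      have h2 : Tendsto (fun l : ℝ => δ / 2 * l) atTop atTop :=
        tendsto_id.const_mul_atTop (by positivity)
      filter_upwards [(h1.comp h2).eventually_ge_atTop (16 / δ), eventually_gt_atTop 0] with l h3 h0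
      have h4 : 0 < δ / 2 * l := by positivity
      simp only [Function.comp_apply, pow_one] at h3
      rw [le_div_iff₀ h4] at h3
      calc 8 * l = 16 / δ * (δ / 2 * l) := by field_simp; ring
        _ ≤ _ := h3
    have e4 : ∀ᶠ l : ℝ in atTop, l ^ c ≤ δ ^ c' / 4 * l ^ c' := rpow_le_eps hcc' (by positivity)
    have e5 : ∀ᶠ l : ℝ in atTop, Real.log (4 * K) ≤ δ ^ c' / 4 * l ^ c' :=
      ((tendsto_rpow_atTop hc'0).const_mul_atTop (by positivity)).eventually_ge_atTop _
    filter_upwards [eventually_ge_atTop 1, hlog.eventually e1, hlog.eventually e2,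
      hlog.eventually e3, hlog.eventually e4, hlog.eventually e5,
      hlog.eventually (eventually_gt_atTop 0)] with N h1 h2 h3 h4 h5 h6 h7
    refine ⟨h1, h2, ?_, ?_⟩
    · rw [Real.rpow_one] at h3
      exact h4.trans (Real.exp_le_exp.2 (by linarith))
    · rw [Real.mul_rpow hδ.le h7.le]
      have h8 : 0 < δ ^ c' * (Real.log N) ^ c' := by
        have := Real.rpow_pos_of_pos h7 c'
        positivity
      nlinarith
  obtain ⟨N0, hN0⟩ := eventually_atTop.1 hev
  refine ⟨N0, fun N hN u D hu hD hauD => ?_⟩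
  obtain ⟨h1, h2, h3, h4⟩ := hN0 N hN
  have hN1 : (1 : ℝ) ≤ N := by exact_mod_cast h1
  have hNpos : (0 : ℝ) < N := by linarith
  have hexp : Real.exp (δ * Real.log N) = (N : ℝ) ^ δ := by
    rw [Real.rpow_def_of_pos hNpos, mul_comm]
  -- sizes
  obtain ⟨M, hMdef⟩ : ∃ M : ℕ, M = a * D := ⟨_, rfl⟩
  have hM : 1 ≤ M := by rw [hMdef]; exact Nat.mul_pos (by omega) (by omega)
  have hMR : (1 : ℝ) ≤ M := by exact_mod_cast hM
  have huM : ((u * M : ℕ) : ℝ) ≤ (N : ℝ) ^ (1 - δ) := by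
    have e : u * M = a * u * D := by rw [hMdef]; ring
    rw [e]; exact hauD
  have huM1 : (1 : ℝ) ≤ ((u * M : ℕ) : ℝ) := by exact_mod_cast Nat.mul_pos (by omega) (by omega)
  have hNN : (N : ℝ) ^ (1 - δ) * (N : ℝ) ^ δ = N := by
    rw [← Real.rpow_add hNpos]; simp
  have hNδ0 : 0 < (N : ℝ) ^ δ := Real.rpow_pos_of_pos hNpos δ
  have huN : u ≤ N := by
    have h5 : (N : ℝ) ^ (1 - δ) ≤ N := by
      calc (N : ℝ) ^ (1 - δ) ≤ (N : ℝ) ^ (1 : ℝ) :=
            Real.rpow_le_rpow_of_exponent_le hN1 (by linarith)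
        _ = N := Real.rpow_one _
    have h6 : ((u * M : ℕ) : ℝ) ≤ N := huM.trans h5
    have h7 : u * M ≤ N := by exact_mod_cast h6
    exact (Nat.le_mul_of_pos_right u hM).trans h7
  set x : ℕ := N / u with hx
  set y : ℕ := x / M with hy
  have hyeq : y = N / (u * M) := by rw [hy, hx, Nat.div_div_eq_div_mul]
  have hy1 : (N : ℝ) ^ δ ≤ y + 1 := by
    have h5 : N < (u * M) * (y + 1) := by
      rw [hyeq]
      exact Nat.lt_mul_div_succ N (Nat.mul_pos (by omega) (by omega))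
    have h6 : (N : ℝ) < ((u * M : ℕ) : ℝ) * ((y : ℝ) + 1) := by exact_mod_cast h5
    have h7 : (N : ℝ) ^ (1 - δ) * (N : ℝ) ^ δ < (N : ℝ) ^ (1 - δ) * ((y : ℝ) + 1) := by
      rw [hNN]
      exact h6.trans_le (by gcongr)
    exact (lt_of_mul_lt_mul_left h7 (Real.rpow_nonneg hNpos.le _)).le
  rw [hexp] at h2
  have hy3 : (x0 : ℝ) + 3 ≤ y := by linarith [(Nat.cast_nonneg x0 : (0 : ℝ) ≤ x0)]
  have hyN : (N : ℝ) ^ δ ≤ 2 * y := by linarith [(Nat.cast_nonneg x0 : (0 : ℝ) ≤ x0)]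
  have hxMy : M * y ≤ x := Nat.mul_div_le x M
  have hxMyR : (M : ℝ) * y ≤ x := by exact_mod_cast hxMy
  have hyx : (y : ℝ) ≤ x := by nlinarith [(Nat.cast_nonneg y : (0 : ℝ) ≤ y)]
  have hxN : (x : ℝ) ≤ N := by exact_mod_cast Nat.div_le_self N u
  have hx0 : x0 ≤ x := by
    have : (x0 : ℝ) ≤ x := by linarith
    exact_mod_cast this
  have hlx1 : 1 ≤ Real.log x := by
    rw [Real.le_log_iff_exp_le (by linarith [(Nat.cast_nonneg x0 : (0 : ℝ) ≤ x0)])]
    have := Real.exp_one_lt_d9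
    linarith [(Nat.cast_nonneg x0 : (0 : ℝ) ≤ x0)]
  have hlxN : Real.log x ≤ Real.log N := Real.log_le_log (by linarith
    [(Nat.cast_nonneg x0 : (0 : ℝ) ≤ x0)]) hxN
  have hpow : (Real.log x) ^ c₀ ≤ (Real.log N) ^ c :=
    (Real.rpow_le_rpow_of_exponent_le hlx1 hcc).trans
      (Real.rpow_le_rpow (by linarith) hlxN hc0)
  set E : ℝ := Real.exp (-(Real.log N) ^ c) with hE
  have hE0 : 0 < E := Real.exp_pos _
  -- the primes
  set P0 : Finset ℕ := (Icc 1 x).filter (fun p => p.Prime ∧ col p = v) with hP0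
  set P : Finset ℕ := P0.filter (fun p => ¬ p ∣ u) with hP
  have hP0card : (x : ℝ) * E ≤ P0.card := by
    refine le_trans ?_ (hrich x hx0)
    have : E ≤ Real.exp (-(Real.log x) ^ c₀) := Real.exp_le_exp.2 (by linarith)
    gcongr
  have hPcard : (x : ℝ) * E / 2 ≤ P.card := by
    have h5 : P0 ⊆ P ∪ u.primeFactors := by
      intro p hp
      by_cases hpu : p ∣ u
      · exact Finset.mem_union_right _ (Nat.mem_primeFactors.2
          ⟨(Finset.mem_filter.1 hp).2.1, hpu, by omega⟩)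
      · exact Finset.mem_union_left _ (Finset.mem_filter.2 ⟨hp, hpu⟩)
    have h6 : (P0.card : ℝ) ≤ P.card + u.primeFactors.card := by
      exact_mod_cast (Finset.card_le_card h5).trans (Finset.card_union_le _ _)
    have h7 := card_primeFactors_le hu huN
    have h8 : 2 * Real.log N ≤ x * E / 2 := by
      have h9 : Real.exp (δ * Real.log N - (Real.log N) ^ c) = (N : ℝ) ^ δ * E := by
        rw [sub_eq_add_neg, Real.exp_add, hexp]
      rw [h9] at h3
      have h10 : (N : ℝ) ^ δ * E ≤ 2 * x * E := by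
        gcongr
        linarith
      linarith
    linarith
  obtain ⟨s, hs⟩ := exists_class P hM
  set Q : Finset ℕ := P.filter (fun p => p % M = s) with hQ
  by_contra hcon
  push Not at hcon
  -- the set of quotients
  set B : Finset ℤ := Q.image (fun p => ((p / M : ℕ) : ℤ)) with hB
  have hQmem : ∀ p ∈ Q, (1 ≤ p ∧ p ≤ x) ∧ (p.Prime ∧ col p = v) ∧ ¬ p ∣ u ∧ p = M * (p / M) + s := by
    intro p hp
    rw [hQ, Finset.mem_filter, hP, Finset.mem_filter, hP0, Finset.mem_filter, Finset.mem_Icc] at hp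
    refine ⟨hp.1.1.1, hp.1.1.2, hp.1.2, ?_⟩
    have := Nat.div_add_mod p M
    rw [hp.2] at this
    exact this.symm
  have hBcard : B.card = Q.card := by
    refine Finset.card_image_of_injOn fun p hp q hq hpq => ?_
    have h5 := (hQmem p hp).2.2.2
    have h6 := (hQmem q hq).2.2.2
    have h7 : p / M = q / M := by exact_mod_cast hpq
    rw [h5, h6, h7]
  have hBfree : DiffFree (C ((1 : ℕ) : ℤ) * X ^ k) B := by
    rw [H463.diffFree_iff]
    intro z hz w hw n hn he
    exfalso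
    obtain ⟨q, hq, rfl⟩ := Finset.mem_image.1 hz
    obtain ⟨p, hp, rfl⟩ := Finset.mem_image.1 hw
    rw [H463.eval_mono] at he
    have h5 := hQmem p hp
    have h6 := hQmem q hq
    have h7 : q / M = p / M + n ^ k := by
      have : ((q / M : ℕ) : ℤ) = ((p / M + n ^ k : ℕ) : ℤ) := by
        push_cast at he ⊢
        linarith
      exact_mod_cast this
    have h8 : q = p + a * D * n ^ k := by
      rw [h6.2.2.2, h7, Nat.mul_add, ← hMdef]
      have := h5.2.2.2
      omega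
    have h9 : u * q ≤ N := by
      calc u * q ≤ u * x := Nat.mul_le_mul_left u h6.1.2
        _ ≤ N := Nat.mul_div_le N u
    have h10 := hcon p q n h5.2.1.1 h6.2.1.1 h5.2.1.2 h6.2.1.2 h5.2.2.1 h6.2.2.1 hn h8
    omega
  have hBlt : ∀ z ∈ B, 0 ≤ z ∧ z < ((y + 1 : ℕ) : ℤ) := by
    intro z hz
    obtain ⟨p, hp, rfl⟩ := Finset.mem_image.1 hz
    have h5 : p / M ≤ y := Nat.div_le_div_right (hQmem p hp).1.2
    constructor
    · positivity
    · exact_mod_cast Nat.lt_succ_of_le h5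
  have hBle := H463.card_le_rMax' hBfree (y + 1) hBlt
  have hrB := hr (y + 1) (Nat.le_add_left 1 y)
  have hy0 : (0 : ℝ) < y := by linarith [(Nat.cast_nonneg x0 : (0 : ℝ) ≤ x0)]
  have h5 : (y : ℝ) * E / 2 ≤ K * (2 * y) * Real.exp (-(δ * Real.log N) ^ c') := by
    have e1 : (y : ℝ) * E / 2 ≤ Q.card := by
      have h6 : (M : ℝ) * (y * E / 2) ≤ M * Q.card := by
        calc (M : ℝ) * (y * E / 2) = M * y * E / 2 := by ring
          _ ≤ x * E / 2 := by gcongr
          _ ≤ P.card := hPcard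
          _ ≤ _ := hs
      exact le_of_mul_le_mul_left h6 (by linarith)
    have e2 : (Q.card : ℝ) ≤ rMax (C ((1 : ℕ) : ℤ) * X ^ k) (y + 1) := by
      rw [← hBcard]
      exact_mod_cast hBle
    refine (e1.trans e2).trans (hrB.trans ?_)
    have e3 : ((y + 1 : ℕ) : ℝ) ≤ 2 * y := by
      push_cast
      linarith [(Nat.cast_nonneg x0 : (0 : ℝ) ≤ x0)]
    have e4 : Real.exp (-(Real.log ((y + 1 : ℕ) : ℝ)) ^ c') ≤
        Real.exp (-(δ * Real.log N) ^ c') := by
      apply Real.exp_le_exp.2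
      have h6 : δ * Real.log N ≤ Real.log ((y + 1 : ℕ) : ℝ) := by
        rw [Real.le_log_iff_exp_le (by positivity), hexp]
        push_cast
        exact hy1
      have h7 : 0 ≤ δ * Real.log N := by
        have := Real.log_nonneg hN1
        positivity
      have := Real.rpow_le_rpow h7 h6 hc'0.le
      linarith
    gcongr
  have h6 : E ≤ 4 * K * Real.exp (-(δ * Real.log N) ^ c') := by
    have h7 : (y : ℝ) * E ≤ y * (4 * K * Real.exp (-(δ * Real.log N) ^ c')) := by linarith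
    exact le_of_mul_le_mul_left h7 hy0
  have h7 := Real.log_le_log hE0 h6
  rw [Real.log_mul (by positivity) (Real.exp_pos _).ne', hE, Real.log_exp, Real.log_exp] at h7
  linarith

end Vale.Agent.P042.H618
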