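import Vale.Agent.P042.R2.H618.PairU
import Vale.Agent.P042.R2.H463.Final

set_option autoImplicit false

namespace Vale.Agent.P042.H618

open Vale.Agent.P042.H757.U

theorem rowPairU : StPairU :=
  rowPairU_of (fun k hk c hc => Vale.Agent.P042.H463.almostPower (a := 1) (k := k) le_rfl hk c hc)

end Vale.Agent.P042.H618
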