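import Vale.Agent.P042.R2.H757.SpecR
import Vale.Agent.P042.R2.H618.Pair
import Mathlib.NumberTheory.LSeries.PrimesInAP

set_option autoImplicit false

/-! P042.MultiplicativeStatistics, row RESU: the residue classes outside a thin set of primes. -/

namespace Vale.Agent.P042.H618

open Finset Filter Vale.Agent.P042.H757 Vale.Agent.P042.H757.U

open Classical in
theorem rowResU (h : StRes) : StResU := by
  intro q hq C0 η hC0 hη hη1
  have : NeZero q := ⟨by omega⟩
  have hrich : ∀ v : Fin q, ∃ c : ℝ, ∃ x0 : ℕ, c < 1 ∧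
      ((∃ p : ℕ, p.Prime ∧ ¬ p ∣ q ∧ p % q = v) → ∀ x : ℕ, x0 ≤ x →
        (x : ℝ) * Real.exp (-(Real.log x) ^ c) ≤
          (((Icc 1 x).filter (fun l => l.Prime ∧ l % q = v)).card : ℝ)) := by
    intro v
    by_cases hv : ∃ p : ℕ, p.Prime ∧ ¬ p ∣ q ∧ p % q = v
    · rcases h q hq v with hF | ⟨c, hc, x0, hx⟩
      · exfalso
        obtain ⟨p, hp, hpq, hpv⟩ := hv
        have hcop : Nat.Coprime p q := (Nat.Prime.coprime_iff_not_dvd hp).2 hpq
        have hunit : IsUnit ((p : ℕ) : ZMod q) := (ZMod.isUnit_iff_coprime p q).2 hcop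
        have hinf := Nat.infinite_setOfPred_prime_and_eq_mod hunit
        refine hinf (hF.subset ?_)
        rintro l ⟨hl, hlp⟩
        refine ⟨hl, Fin.ext ?_⟩
        show l % q = v
        rw [← hpv]
        exact (ZMod.natCast_eq_natCast_iff' l p q).1 hlp
      · refine ⟨c, x0, hc, fun _ x hx0 => (hx x hx0).trans ?_⟩
        refine Nat.cast_le.2 (Finset.card_le_card fun l hl => ?_)
        rw [Finset.mem_filter] at hl ⊢
        exact ⟨hl.1, hl.2.1, congrArg Fin.val hl.2.2⟩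
    · exact ⟨0, 0, by norm_num, fun h => absurd h hv⟩
  choose cv xv hcv hxv using hrich
  obtain ⟨c0, hc01, hc00, hcc⟩ : ∃ c0 : ℝ, c0 < 1 ∧ 0 ≤ c0 ∧ ∀ v, cv v ≤ c0 := by
    have hne : (Finset.univ : Finset (Fin q)).Nonempty := ⟨⟨0, hq⟩, Finset.mem_univ _⟩
    refine ⟨max 0 (Finset.univ.sup' hne cv), max_lt one_pos ?_, le_max_left _ _, fun v => ?_⟩
    · exact (Finset.sup'_lt_iff hne).2 fun v _ => hcv v
    · exact le_max_of_le_right (Finset.le_sup' cv (Finset.mem_univ v))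
  obtain ⟨X, hX⟩ : ∃ X : ℕ, ∀ v, xv v ≤ X :=
    ⟨Finset.univ.sup xv, fun v => Finset.le_sup (Finset.mem_univ v)⟩
  obtain ⟨c, hcdef⟩ : ∃ c : ℝ, c = (1 + c0) / 2 := ⟨_, rfl⟩
  have hc0c : c0 < c := by rw [hcdef]; linarith
  have hc1 : c < 1 := by rw [hcdef]; linarith
  have hlog : Tendsto (fun N : ℕ => Real.log (N : ℝ)) atTop atTop :=
    Real.tendsto_log_atTop.comp tendsto_natCast_atTop_atTop
  have hev : ∀ᶠ x : ℕ in atTop, 1 ≤ x ∧ 1 ≤ Real.log x ∧
      (Real.log x) ^ c0 + Real.log 2 ≤ (Real.log x) ^ c ∧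
      (Real.log x) ^ c0 + Real.log (2 * C0 + 2) ≤ η * Real.log x := by
    have e1 : ∀ᶠ l : ℝ in atTop, l ^ c0 ≤ 1 / 2 * l ^ c := rpow_le_eps hc0c (by positivity)
    have e2 : ∀ᶠ l : ℝ in atTop, Real.log 2 ≤ 1 / 2 * l ^ c :=
      ((tendsto_rpow_atTop (by linarith : 0 < c)).const_mul_atTop
        (by positivity)).eventually_ge_atTop _
    have e3 : ∀ᶠ l : ℝ in atTop, l ^ c0 ≤ η / 2 * l ^ (1 : ℝ) := rpow_le_eps hc01 (by positivity)
    have e4 : ∀ᶠ l : ℝ in atTop, Real.log (2 * C0 + 2) ≤ η / 2 * l :=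
      (tendsto_id.const_mul_atTop (by positivity)).eventually_ge_atTop _
    filter_upwards [eventually_ge_atTop 1, hlog.eventually e1, hlog.eventually e2,
      hlog.eventually e3, hlog.eventually e4, hlog.eventually (eventually_ge_atTop 1)]
      with x h1 h2 h3 h4 h5 h6
    rw [Real.rpow_one] at h4
    exact ⟨h1, h6, by linarith, by linarith⟩
  obtain ⟨N0, hN0⟩ := eventually_atTop.1 hev
  refine ⟨c, hc1, max N0 X, fun T hT p hp hpq x hx => ?_⟩
  obtain ⟨h1, h2, h3, h4⟩ := hN0 x ((le_max_left _ _).trans hx)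
  have hxX : X ≤ x := (le_max_right _ _).trans hx
  have hx1 : (1 : ℝ) ≤ x := by exact_mod_cast h1
  have hx0 : (0 : ℝ) < x := by linarith
  set v : Fin q := ⟨p % q, Nat.mod_lt p hq⟩ with hv
  have h5 := hxv v ⟨p, hp, hpq, rfl⟩ x ((hX v).trans hxX)
  have h6 := hT x h1
  rw [ncard_eq] at h6 ⊢
  have h7 : (Icc 1 x).filter (fun l => l.Prime ∧ l % q = v) ⊆
      (Icc 1 x).filter (fun l => l.Prime ∧
        l ∈ cls (T ∪ {l | l ∣ q}) (fun n => n % q) p) ∪
      (Icc 1 x).filter (fun l => l.Prime ∧ l ∈ T) := by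
    intro l hl
    rw [Finset.mem_filter] at hl
    by_cases hlT : l ∈ T
    · exact Finset.mem_union_right _ (Finset.mem_filter.2 ⟨hl.1, hl.2.1, hlT⟩)
    · refine Finset.mem_union_left _ (Finset.mem_filter.2 ⟨hl.1, hl.2.1, ?_, hl.2.2⟩)
      rintro (h8 | h8)
      · exact hlT h8
      · have h9 : l ∣ q := h8
        have h10 : l % q = p % q := hl.2.2
        have h11 : Nat.gcd l q = Nat.gcd p q := Nat.ModEq.gcd_eq h10
        have h12 : l ∣ p := by
          have : l ∣ Nat.gcd l q := Nat.dvd_gcd dvd_rfl h9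
          rw [h11] at this
          exact this.trans (Nat.gcd_dvd_left p q)
        have h13 : l = p := (Nat.prime_dvd_prime_iff_eq hl.2.1 hp).1 h12
        exact hpq (h13 ▸ h9)
  have h8 : (((Icc 1 x).filter (fun l => l.Prime ∧ l % q = v)).card : ℝ) ≤
      (((Icc 1 x).filter (fun l => l.Prime ∧
        l ∈ cls (T ∪ {l | l ∣ q}) (fun n => n % q) p)).card : ℝ) +
      (((Icc 1 x).filter (fun l => l.Prime ∧ l ∈ T)).card : ℝ) := by
    exact_mod_cast (Finset.card_le_card h7).trans (Finset.card_union_le _ _)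
  have h9 : Real.exp (-(Real.log x) ^ c0) ≤ Real.exp (-(Real.log x) ^ (cv v)) :=
    Real.exp_le_exp.2 (neg_le_neg (Real.rpow_le_rpow_of_exponent_le h2 (hcc v)))
  have h10 : Real.exp (-(Real.log x) ^ c) ≤ Real.exp (-(Real.log x) ^ c0) / 2 := by
    calc Real.exp (-(Real.log x) ^ c) ≤ Real.exp (-(Real.log x) ^ c0 - Real.log 2) :=
          Real.exp_le_exp.2 (by linarith)
      _ = _ := by rw [Real.exp_sub, Real.exp_log (by norm_num)]
  have h11 : C0 * (x : ℝ) ^ (1 - η) ≤ x * (Real.exp (-(Real.log x) ^ c0) / 2) := by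
    have e1 : (x : ℝ) ^ (1 - η) = x * Real.exp (-(η * Real.log x)) := by
      rw [Real.rpow_sub hx0, Real.rpow_one, Real.rpow_def_of_pos hx0, Real.exp_neg,
        mul_comm (Real.log x) η]
      rfl
    have e2 : Real.exp (-(η * Real.log x)) ≤
        Real.exp (-(Real.log x) ^ c0) / (2 * C0 + 2) := by
      calc Real.exp (-(η * Real.log x)) ≤
            Real.exp (-(Real.log x) ^ c0 - Real.log (2 * C0 + 2)) :=
            Real.exp_le_exp.2 (by linarith)
        _ = _ := by rw [Real.exp_sub, Real.exp_log (by positivity)]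
    rw [e1]
    have e3 : C0 * (Real.exp (-(Real.log x) ^ c0) / (2 * C0 + 2)) ≤
        Real.exp (-(Real.log x) ^ c0) / 2 := by
      have e4 := Real.exp_pos (-(Real.log x) ^ c0)
      rw [mul_div_assoc', div_le_div_iff₀ (by positivity) (by norm_num)]
      nlinarith
    calc C0 * (x * Real.exp (-(η * Real.log x))) = x * (C0 * Real.exp (-(η * Real.log x))) := by
          ring
      _ ≤ x * (C0 * (Real.exp (-(Real.log x) ^ c0) / (2 * C0 + 2))) := by gcongr
      _ ≤ x * (Real.exp (-(Real.log x) ^ c0) / 2) := by gcongr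
  have h12 : (x : ℝ) * Real.exp (-(Real.log x) ^ c) ≤ x * (Real.exp (-(Real.log x) ^ c0) / 2) := by
    gcongr
  have h13 : (x : ℝ) * Real.exp (-(Real.log x) ^ c0) ≤ x * Real.exp (-(Real.log x) ^ (cv v)) := by
    gcongr
  linarith

end Vale.Agent.P042.H618
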